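import Mathlib

/-! P260, block S3: Schur's theorem for the image of `A` in `G ⧸ R`. -/

namespace Vale.Agent.P260.H234

open scoped commutatorElement

theorem finite_commutatorSet {F : Type} [Group F] (Z : Subgroup F) (hZ : Z.FiniteIndex)
    (hc : ∀ z ∈ Z, ∀ x : F, z * x = x * z) : Finite (commutatorSet F) := by
  have hsub : commutatorSet F ⊆
      Set.range (fun p : (F ⧸ Z) × (F ⧸ Z) => ⁅p.1.out, p.2.out⁆) := by
    rintro _ ⟨x, y, rfl⟩
    refine ⟨((x : F ⧸ Z), (y : F ⧸ Z)), ?_⟩
    obtain ⟨z, hz⟩ := QuotientGroup.mk_out_eq_mul Z x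
    obtain ⟨w, hw⟩ := QuotientGroup.mk_out_eq_mul Z y
    simp only
    rw [hz, hw]
    have e1 := hc z z.2
    have e2 := hc w w.2
    have h1 : ∀ u : F, ⁅x * (z : F), u⁆ = ⁅x, u⁆ := by
      intro u
      rw [commutatorElement_def, commutatorElement_def]
      have : x * (z : F) * u * (x * (z : F))⁻¹ = x * u * x⁻¹ := by
        rw [mul_assoc x, e1 u]; group
      rw [this]
    have h2 : ∀ u : F, ⁅u, y * (w : F)⁆ = ⁅u, y⁆ := by
      intro u
      rw [commutatorElement_def, commutatorElement_def]
      have : (w : F)  * u⁻¹ = u⁻¹ * w := e2 _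
      rw [mul_inv_rev]
      calc u * (y * (w : F)) * u⁻¹ * ((w : F)⁻¹ * y⁻¹)
          = u * y * ((w : F) * u⁻¹) * (w : F)⁻¹ * y⁻¹ := by group
        _ = _ := by rw [this]; group
    rw [h1, h2]
  exact Set.Finite.subset (Set.finite_range _) hsub

theorem finite_comm {G : Type} [Group G] (A V R : Subgroup G) [A.Normal] [R.Normal]
    (hV : V.FiniteIndex) (h : ∀ a ∈ A, ∀ v ∈ V, ⁅a, v⁆ ∈ R) :
    Finite ((⁅A, A⁆).map (QuotientGroup.mk' R)) := by
  -- the group A, with its subgroup of finite index V ⊓ A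
  let π : A →* (A.map (QuotientGroup.mk' R)) := (QuotientGroup.mk' R).subgroupMap A
  have hπ : Function.Surjective π := (QuotientGroup.mk' R).subgroupMap_surjective A
  have hVA : (V.subgroupOf A).FiniteIndex := inferInstance
  have hZ : ((V.subgroupOf A).map π).FiniteIndex := by
    constructor
    intro h0
    have h1 := Subgroup.index_map_dvd (V.subgroupOf A) hπ
    rw [h0, zero_dvd_iff] at h1
    exact hVA.index_ne_zero h1
  have hfin : Finite (commutatorSet (A.map (QuotientGroup.mk' R))) := by
    apply finite_commutatorSet _ hZ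
    rintro _ ⟨v, hv, rfl⟩ x
    obtain ⟨a, rfl⟩ := hπ x
    apply Subtype.ext
    show QuotientGroup.mk' R (v : G) * QuotientGroup.mk' R (a : G) =
      QuotientGroup.mk' R (a : G) * QuotientGroup.mk' R (v : G)
    have h1 := h a a.2 v hv
    have h2 : QuotientGroup.mk' R ⁅(a : G), (v : G)⁆ = 1 := (QuotientGroup.eq_one_iff _).mpr h1
    rw [map_commutatorElement, commutatorElement_eq_one_iff_mul_comm] at h2
    exact h2.symm
  have h1 : Finite (commutator (A.map (QuotientGroup.mk' R))) := inferInstance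
  rw [Subgroup.map_commutator, ← Subgroup.map_subtype_commutator]
  exact Finite.of_surjective _ ((A.map (QuotientGroup.mk' R)).subtype.subgroupMap_surjective
    (commutator (A.map (QuotientGroup.mk' R))))

end Vale.Agent.P260.H234
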