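import Mathlib
import Vale.Agent.P260.Defs

/-! P260, block S5a: virtual solvability from the layers `B ≤ D`, `⁅A, A⁆ ≤ D`. -/

namespace Vale.Agent.P260.H234

open scoped commutatorElement

theorem vsolv_of_layers {G : Type} [Group G] (A B D : Subgroup G) [A.Normal] [B.Normal] [D.Normal]
    (H : Subgroup G) (hH : H.FiniteIndex) (n : ℕ)
    (hA : ∀ h : H, h ∈ derivedSeries H n → (h : G) ∈ A) (hD : ⁅A, A⁆ ≤ D) (_hBD : B ≤ D)
    (hfin : Finite (D.map (QuotientGroup.mk' B))) (hB : ⁅⁅B, B⁆, ⁅B, B⁆⁆ = ⊥) : VSolv G := by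
  have hFn : (D.map (QuotientGroup.mk' B)).Normal :=
    Subgroup.Normal.map inferInstance _ (QuotientGroup.mk'_surjective B)
  let φ : G ⧸ B →* MulAut (D.map (QuotientGroup.mk' B)) := MulAut.conjNormal
  have hfa : Finite (MulAut (D.map (QuotientGroup.mk' B))) :=
    Finite.of_injective (fun e : MulAut (D.map (QuotientGroup.mk' B)) =>
      (e : D.map (QuotientGroup.mk' B) → D.map (QuotientGroup.mk' B))) DFunLike.coe_injective
  let K : Subgroup G := (φ.comp (QuotientGroup.mk' B)).ker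
  have hfr : Finite (φ.comp (QuotientGroup.mk' B)).range := inferInstance
  have hK : K.FiniteIndex := Subgroup.finiteIndex_ker (φ.comp (QuotientGroup.mk' B))
  have hKD : ∀ k ∈ K, ∀ d ∈ D, ⁅d, k⁆ ∈ B := by
    intro k hk d hd
    have h1 : φ (QuotientGroup.mk' B k) = 1 := hk
    have h2 := congrArg (fun e : MulAut (D.map (QuotientGroup.mk' B)) =>
      ((e ⟨QuotientGroup.mk' B d, Subgroup.mem_map_of_mem _ hd⟩ :
        D.map (QuotientGroup.mk' B)) : G ⧸ B)) h1
    simp only [φ, MulAut.conjNormal_apply, MulAut.one_apply] at h2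
    rw [← QuotientGroup.eq_one_iff]
    have h3 : QuotientGroup.mk' B ⁅d, k⁆ = 1 := by
      rw [commutatorElement_def, map_mul, map_mul, map_mul, map_inv, map_inv]
      have h4 := (mul_inv_eq_iff_eq_mul.mp h2)
      rw [← h4]
      group
    exact h3
  refine ⟨H ⊓ K, inferInstance, ?_⟩
  let S : ℕ → Subgroup G := fun k => (derivedSeries (H ⊓ K : Subgroup G) k).map (H ⊓ K).subtype
  have hS : ∀ k, S (k + 1) = ⁅S k, S k⁆ := by
    intro k
    simp only [S]
    rw [derivedSeries_succ, Subgroup.map_commutator]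
  have hSle : ∀ k, S k ≤ H ⊓ K := fun k => Subgroup.map_subtype_le _
  have h0 : S n ≤ A := by
    rintro _ ⟨x, hx, rfl⟩
    have h1 := map_derivedSeries_le_derivedSeries (Subgroup.inclusion (inf_le_left : H ⊓ K ≤ H)) n
    exact hA _ (h1 (Subgroup.mem_map_of_mem _ hx))
  have h1 : S (n + 1) ≤ D := by
    rw [hS]; exact (Subgroup.commutator_mono h0 h0).trans hD
  have h2 : S (n + 2) ≤ B := by
    rw [hS, Subgroup.commutator_le]
    intro x hx y hy
    exact hKD y (hSle _ hy).2 x (h1 hx)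
  have h3 : S (n + 4) ≤ ⊥ := by
    rw [hS, hS, ← hB]
    exact Subgroup.commutator_mono (Subgroup.commutator_mono h2 h2)
      (Subgroup.commutator_mono h2 h2)
  refine ⟨⟨n + 4, ?_⟩⟩
  rw [eq_bot_iff]
  intro x hx
  have h4 : (x : G) ∈ S (n + 4) := Subgroup.mem_map_of_mem _ hx
  have h5 := h3 h4
  rw [Subgroup.mem_bot] at h5 ⊢
  exact Subtype.ext h5

end Vale.Agent.P260.H234
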