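import Mathlib
import Vale.Agent.P260.H145.RFDefs

/-! P260, block S5b: the Z-group step. -/

namespace Vale.Agent.P260.H234

open scoped commutatorElement
open Vale.Agent.P260.H145

theorem metab_of_zgroup {Q : Type} [Group Q] (F : Subgroup Q) (hf : Finite F) (hz : IsZGroup F) :
    ⁅⁅F, F⁆, ⁅F, F⁆⁆ = ⊥ := by
  have h1 : IsCyclic (commutator F) := IsZGroup.isCyclic_commutator F
  have h2 : ∀ x y : commutator F, x * y = y * x := by
    have := h1.isMulCommutative
    exact fun x y => mul_comm' x y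
  rw [← Subgroup.map_subtype_commutator F, Subgroup.commutator_eq_bot_iff_le_centralizer]
  rintro _ ⟨x, hx, rfl⟩
  rw [Subgroup.mem_centralizer_iff]
  rintro _ ⟨y, hy, rfl⟩
  rw [← map_mul, ← map_mul]
  congr 1
  exact congrArg Subtype.val (h2 ⟨y, hy⟩ ⟨x, hx⟩)

theorem metab {G : Type} [Group G] (hres : ResFin G) (B : Subgroup G) [B.Normal]
    (h : ∀ (p : ℕ) [Fact p.Prime] (N : Subgroup G) [N.Normal] [N.FiniteIndex],
      ∃ R : Subgroup G, ∃ _ : R.Normal, R ≤ N ∧ Finite (B.map (QuotientGroup.mk' R)) ∧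
        ∀ P : Sylow p (B.map (QuotientGroup.mk' R)), IsCyclic P) :
    ⁅⁅B, B⁆, ⁅B, B⁆⁆ = ⊥ := by
  have key : ∀ N : Subgroup G, N.Normal → N.FiniteIndex → ⁅⁅B, B⁆, ⁅B, B⁆⁆ ≤ N := by
    intro N hN hNf
    have hzg : IsZGroup (B.map (QuotientGroup.mk' N)) := by
      rw [isZGroup_iff]
      intro p hp P
      have : Fact p.Prime := ⟨hp⟩
      obtain ⟨R, hR, hRN, hRf, hcyc⟩ := h p N
      let q : G ⧸ R →* G ⧸ N := QuotientGroup.map R N (MonoidHom.id G) (by simpa using hRN)
      have hq : ∀ g : G, q (QuotientGroup.mk' R g) = QuotientGroup.mk' N g := fun g => rfl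
      have hqmem : ∀ x : B.map (QuotientGroup.mk' R),
          q (x : G ⧸ R) ∈ B.map (QuotientGroup.mk' N) := by
        rintro ⟨_, b, hb, rfl⟩
        exact ⟨b, hb, rfl⟩
      let f : B.map (QuotientGroup.mk' R) →* B.map (QuotientGroup.mk' N) :=
        (q.comp (B.map (QuotientGroup.mk' R)).subtype).codRestrict _ hqmem
      have hf : Function.Surjective f := by
        rintro ⟨_, b, hb, rfl⟩
        exact ⟨⟨QuotientGroup.mk' R b, b, hb, rfl⟩, rfl⟩
      obtain ⟨T, rfl⟩ := Sylow.mapSurjective_surjective hf p P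
      have := hcyc T
      exact isCyclic_of_surjective _ (f.subgroupMap_surjective T)
    have hfin : Finite (B.map (QuotientGroup.mk' N)) := inferInstance
    have h1 := metab_of_zgroup (B.map (QuotientGroup.mk' N)) hfin hzg
    rw [← Subgroup.map_commutator, ← Subgroup.map_commutator] at h1
    intro x hx
    have h2 : QuotientGroup.mk' N x ∈ (⊥ : Subgroup (G ⧸ N)) := by
      rw [← h1]; exact Subgroup.mem_map_of_mem _ hx
    exact (QuotientGroup.eq_one_iff x).mp (Subgroup.mem_bot.mp h2)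
  rw [eq_bot_iff]
  intro x hx
  rw [Subgroup.mem_bot]
  by_contra hx1
  obtain ⟨N, hN, hNf, hxN⟩ := hres x hx1
  exact hxN (key N hN hNf hx)

end Vale.Agent.P260.H234
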