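import Mathlib

/-! P260, block X4a: a finite `p`-group, `p` odd, in which two commuting elements of order
dividing `p` always generate a cyclic group, is cyclic. -/

namespace Vale.Agent.P260.H234

/-- geometric sum congruence: if `p` is odd and `p ∣ r - 1` then `∑_{i<p} r^i = p * u` with `u`
prime to `p`. -/
theorem geom_sum_eq (p : ℕ) [hpf : Fact p.Prime] (hp : p ≠ 2) (r : ℤ) (hr : (p : ℤ) ∣ r - 1) :
    ∃ u : ℤ, ∑ i ∈ Finset.range p, r ^ i = p * u ∧ IsCoprime u (p : ℤ) := by
  obtain ⟨t, ht⟩ := hr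
  have hr' : r = 1 + p * t := by linarith
  -- r ^ i ≡ 1 + i p t mod p^2
  have h1 : ∀ i : ℕ, ∃ w : ℤ, r ^ i = 1 + i * (p * t) + (p : ℤ) ^ 2 * w := by
    intro i
    induction i with
    | zero => exact ⟨0, by simp⟩
    | succ i ih =>
      obtain ⟨w, hw⟩ := ih
      refine ⟨w + i * t * t + p * t * w, ?_⟩
      rw [pow_succ, hw, hr']
      push_cast
      ring
  choose w hw using h1
  have hpodd : Odd p := hpf.out.odd_of_ne_two hp
  obtain ⟨k, hk⟩ := hpodd
  have hsum : ∑ i ∈ Finset.range p, (i : ℤ) = p * k := by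
    have h2 := Finset.sum_range_id_mul_two p
    have h3 : (∑ i ∈ Finset.range p, (i : ℤ)) * 2 = p * (p - 1) := by
      have h4 : ((∑ i ∈ Finset.range p, i : ℕ) : ℤ) * 2 = ((p * (p - 1) : ℕ) : ℤ) := by
        exact_mod_cast congrArg (fun n : ℕ => (n : ℤ)) h2
      rw [Nat.cast_mul, Nat.cast_sub hpf.out.one_lt.le] at h4
      push_cast at h4
      exact h4
    have h5 : (p : ℤ) = 2 * k + 1 := by exact_mod_cast congrArg (fun n : ℕ => (n : ℤ)) hk
    have h6 : (∑ i ∈ Finset.range p, (i : ℤ)) * 2 = (p * k) * 2 := by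
      rw [h3]
      have : (p : ℤ) - 1 = 2 * k := by linarith
      rw [this]; ring
    exact mul_right_cancel₀ (by norm_num) h6
  refine ⟨1 + p * (k * t + ∑ i ∈ Finset.range p, w i), ?_, ?_⟩
  · calc ∑ i ∈ Finset.range p, r ^ i
        = ∑ i ∈ Finset.range p, (1 + (i : ℤ) * (p * t) + (p : ℤ) ^ 2 * w i) := by
          exact Finset.sum_congr rfl fun i _ => hw i
      _ = p + (∑ i ∈ Finset.range p, (i : ℤ)) * (p * t)
            + (p : ℤ) ^ 2 * ∑ i ∈ Finset.range p, w i := by
          rw [Finset.sum_add_distrib, Finset.sum_add_distrib, ← Finset.sum_mul, ← Finset.mul_sum]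
          simp
      _ = _ := by rw [hsum]; ring
  · exact ⟨1, -(k * t + ∑ i ∈ Finset.range p, w i), by ring⟩

theorem conj_pow {S : Type} [Group S] {a b : S} {r : ℤ} (hab : b * a * b⁻¹ = a ^ r) (i : ℕ)
    (j : ℤ) : b ^ i * a ^ j = a ^ (j * r ^ i) * b ^ i := by
  have h1 : ∀ j : ℤ, b * a ^ j = a ^ (j * r) * b := by
    intro j
    have h : b * a ^ j * b⁻¹ = a ^ (j * r) := by
      rw [← conj_zpow, hab, ← zpow_mul, mul_comm]
    rw [← h]; group
  induction i with
  | zero => simp
  | succ i ih =>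
    rw [pow_succ' b i, mul_assoc, ih, ← mul_assoc, h1, pow_succ r i, mul_assoc, mul_assoc]

theorem mul_pow_formula {S : Type} [Group S] {a b : S} {r : ℤ} (hab : b * a * b⁻¹ = a ^ r) (i : ℕ)
    (j : ℤ) : (a ^ j * b) ^ i = a ^ (j * ∑ l ∈ Finset.range i, r ^ l) * b ^ i := by
  induction i with
  | zero => simp
  | succ i ih =>
    rw [pow_succ, ih, Finset.sum_range_succ, mul_add, zpow_add, pow_succ]
    have := conj_pow hab i j
    calc a ^ (j * ∑ l ∈ Finset.range i, r ^ l) * b ^ i * (a ^ j * b)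
        = a ^ (j * ∑ l ∈ Finset.range i, r ^ l) * (b ^ i * a ^ j) * b := by group
      _ = _ := by rw [this]; group

theorem cyclic_of_odd_aux (p : ℕ) [hpf : Fact p.Prime] (hp : p ≠ 2) (n : ℕ) :
    ∀ (S : Type) [Group S] [Finite S] (_ : Nat.card S = p ^ n)
    (_ : ∀ x y : S, x ^ p = 1 → y ^ p = 1 → x * y = y * x → x ≠ 1 → y ∈ Subgroup.zpowers x),
    IsCyclic S := by
  induction n with
  | zero =>
    intro S _ _ hc _
    have : Subsingleton S := by
      rw [pow_zero] at hc
      exact (Nat.card_eq_one_iff_unique.mp hc).1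
    exact isCyclic_of_subsingleton
  | succ n ih =>
    intro S _ _ hc h
    by_contra hnc
    rcases Nat.eq_zero_or_pos n with hn | hn
    · subst hn
      exact hnc (isCyclic_of_prime_card (p := p) (by simpa using hc))
    obtain ⟨M, hM⟩ := Sylow.exists_subgroup_card_pow_prime (G := S) p (n := n)
      (by rw [hc]; exact pow_dvd_pow p (Nat.le_succ n))
    have hpp : 0 < p := hpf.out.pos
    have hidx : M.index = p := by
      have h1 := M.card_mul_index
      rw [hM, hc, pow_succ] at h1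
      exact Nat.eq_of_mul_eq_mul_left (pow_pos hpp n) h1
    have hnorm : M.Normal := by
      apply Subgroup.normal_of_index_eq_minFac_card
      rw [hidx, hc, Nat.pow_minFac (Nat.succ_ne_zero n), hpf.out.minFac_eq]
    have hMc : IsCyclic M := by
      apply ih M hM
      intro x y hx hy hxy hx1
      have := h (x : S) (y : S) (by exact_mod_cast congrArg Subtype.val hx)
        (by exact_mod_cast congrArg Subtype.val hy) (by exact_mod_cast congrArg Subtype.val hxy)
        (fun h0 => hx1 (Subtype.ext h0))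
      obtain ⟨k, hk⟩ := this
      exact ⟨k, Subtype.ext (by simpa using hk)⟩
    obtain ⟨a, ha⟩ := Subgroup.isCyclic_iff_exists_zpowers_eq_top M |>.mp hMc
    have hao : orderOf a = p ^ n := by
      rw [← Nat.card_zpowers, ha, hM]
    -- element outside
    have hMtop : M ≠ ⊤ := by
      intro ht
      rw [ht, Subgroup.index_top] at hidx
      exact hpf.out.one_lt.ne hidx
    obtain ⟨b, hb⟩ : ∃ b, b ∉ M := by
      by_contra hcon
      push Not at hcon
      exact hMtop (eq_top_iff.mpr fun x _ => hcon x)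
    have hbp : b ^ p ∈ M := by
      rw [← hidx]; exact Subgroup.pow_index_mem M b
    rw [← ha] at hbp
    obtain ⟨m, hm⟩ := hbp
    simp only at hm
    -- orderOf b divides p^n
    have hbo : b ^ (p ^ n) = 1 := by
      have h1 : orderOf b ∣ p ^ (n + 1) := hc ▸ orderOf_dvd_natCard b
      obtain ⟨k, hk, hk2⟩ := (Nat.dvd_prime_pow hpf.out).mp h1
      rcases Nat.lt_or_ge k (n + 1) with hlt | hge
      · rw [← orderOf_dvd_iff_pow_eq_one, hk2]
        exact pow_dvd_pow p (Nat.lt_succ_iff.mp hlt)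
      · exfalso
        apply hnc
        apply isCyclic_of_orderOf_eq_card b
        rw [hk2, hc, le_antisymm hk hge]
    have hpm : (p : ℤ) ∣ m := by
      have h1 : a ^ (m * (p : ℤ) ^ (n - 1)) = 1 := by
        rw [zpow_mul, hm]
        have : (b ^ p) ^ ((p : ℤ) ^ (n - 1)) = b ^ (p ^ n) := by
          have h2 : ((p : ℤ) ^ (n - 1)) = ((p ^ (n - 1) : ℕ) : ℤ) := by push_cast; rfl
          rw [h2, zpow_natCast, ← pow_mul, ← pow_succ', Nat.sub_add_cancel hn]
        rw [this, hbo]
      have h2 : ((p ^ n : ℕ) : ℤ) ∣ m * (p : ℤ) ^ (n - 1) := by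
        rw [← hao]; exact orderOf_dvd_iff_zpow_eq_one.mpr h1
      have h3 : ((p ^ n : ℕ) : ℤ) = (p : ℤ) * (p : ℤ) ^ (n - 1) := by
        push_cast
        rw [← pow_succ', Nat.sub_add_cancel hn]
      rw [h3] at h2
      exact Int.dvd_of_mul_dvd_mul_right (pow_ne_zero _ (by exact_mod_cast hpp.ne')) h2
    obtain ⟨m', hm'⟩ := hpm
    -- conjugation
    have haM : a ∈ M := by rw [← ha]; exact Subgroup.mem_zpowers a
    have hconj : b * a * b⁻¹ ∈ M := hnorm.conj_mem a haM b
    rw [← ha] at hconj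
    obtain ⟨r, hr⟩ := hconj
    simp only at hr
    have hrp : (p : ℤ) ∣ r - 1 := by
      have h1 := conj_pow hr.symm p 1
      rw [zpow_one, one_mul, ← hm] at h1
      have h2 : a ^ (r ^ p - 1) = 1 := by
        have h3 : a ^ (r ^ p) * a ^ m = a * a ^ m := by
          rw [← h1, ← zpow_one_add, ← zpow_add_one, add_comm]
        rw [zpow_sub_one, mul_right_cancel h3, mul_inv_cancel]
      have h3 : ((p ^ n : ℕ) : ℤ) ∣ r ^ p - 1 := by
        rw [← hao]; exact orderOf_dvd_iff_zpow_eq_one.mpr h2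
      have h4 : (p : ℤ) ∣ r ^ p - 1 := by
        refine dvd_trans ?_ h3
        exact_mod_cast dvd_pow_self p hn.ne'
      have h5 : ((r : ℤ) : ZMod p) ^ p = 1 := by
        have := (ZMod.intCast_zmod_eq_zero_iff_dvd (r ^ p - 1) p).mpr h4
        push_cast at this
        exact sub_eq_zero.mp this
      rw [ZMod.pow_card] at h5
      apply (ZMod.intCast_zmod_eq_zero_iff_dvd (r - 1) p).mp
      push_cast
      rw [h5, sub_self]
    obtain ⟨u, hu, huc⟩ := geom_sum_eq p hp r hrp
    -- choose j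
    obtain ⟨j, hj⟩ : ∃ j : ℤ, ((p : ℤ) ^ n) ∣ j * u + m' := by
      obtain ⟨c, d, hcd⟩ := (huc.pow_right : IsCoprime u ((p : ℤ) ^ n))
      refine ⟨-m' * c, m' * d, ?_⟩
      linear_combination (-m') * hcd
    have hyp : (a ^ j * b) ^ p = 1 := by
      rw [mul_pow_formula hr.symm, hu, ← hm, ← zpow_add, hm']
      obtain ⟨e, he⟩ := hj
      have h1 : j * (↑p * u) + ↑p * m' = (p : ℤ) ^ n * (p * e) := by
        linear_combination (p : ℤ) * he
      rw [h1, zpow_mul]
      have h2 : a ^ ((p : ℤ) ^ n) = 1 := by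
        have h3 : ((p : ℤ) ^ n) = ((p ^ n : ℕ) : ℤ) := by push_cast; rfl
        rw [h3, zpow_natCast, ← hao, pow_orderOf_eq_one]
      rw [h2, one_zpow]
    -- x
    have hx1 : a ^ (p ^ (n - 1)) ≠ 1 := by
      intro h0
      have h1 := orderOf_dvd_of_pow_eq_one h0
      rw [hao] at h1
      have h2 := (Nat.pow_dvd_pow_iff_le_right hpf.out.one_lt).mp h1
      omega
    have hxp : (a ^ (p ^ (n - 1))) ^ p = 1 := by
      rw [← pow_mul, ← pow_succ, Nat.sub_add_cancel hn, ← hao, pow_orderOf_eq_one]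
    have hcomm : a ^ (p ^ (n - 1)) * (a ^ j * b) = (a ^ j * b) * a ^ (p ^ (n - 1)) := by
      have h1 : b * a ^ (p ^ (n - 1)) = a ^ (p ^ (n - 1)) * b := by
        have h2 := conj_pow hr.symm 1 ((p ^ (n - 1) : ℕ) : ℤ)
        rw [pow_one, pow_one, zpow_natCast] at h2
        rw [h2]
        congr 1
        obtain ⟨t, ht⟩ := hrp
        have h3 : ((p ^ (n - 1) : ℕ) : ℤ) * r = ((p ^ (n - 1) : ℕ) : ℤ)
            + ((p ^ (n - 1) : ℕ) : ℤ) * p * t := by
          have : r = 1 + p * t := by linarith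
          rw [this]; ring
        rw [h3, zpow_add, zpow_natCast, zpow_mul, zpow_mul, zpow_natCast, zpow_natCast, hxp,
          one_zpow, mul_one]
      rw [mul_assoc, h1, ← mul_assoc, ← mul_assoc]
      congr 1
      rw [← zpow_natCast, ← zpow_add, ← zpow_add, add_comm]
    have hmem := h _ _ hxp hyp hcomm hx1
    have h1 : (a ^ j * b) ∈ M := by
      rw [← ha]
      refine Subgroup.zpowers_le.mpr ?_ hmem
      exact Subgroup.npow_mem_zpowers a _
    have h2 : b ∈ M := by
      have h3 : a ^ j ∈ M := M.zpow_mem haM j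
      exact (M.mul_mem_cancel_left h3).mp h1
    exact hb h2

/-- block X4a -/
theorem cyclic_of_odd (p : ℕ) [Fact p.Prime] (hp : p ≠ 2) (S : Type) [Group S] [Finite S]
    (hS : IsPGroup p S)
    (h : ∀ x y : S, x ^ p = 1 → y ^ p = 1 → x * y = y * x → x ≠ 1 → y ∈ Subgroup.zpowers x) :
    IsCyclic S := by
  obtain ⟨n, hn⟩ := IsPGroup.iff_card.mp hS
  exact cyclic_of_odd_aux p hp n S hn h

end Vale.Agent.P260.H234
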