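import Mathlib

/-! P260, block X4b: a finite `2`-group with at most one involution mapping onto a noncyclic
group with at most one involution maps injectively. -/

namespace Vale.Agent.P260.H234

/-- a commutative finite `p`-group with at most one subgroup of order `p` is cyclic. -/
theorem comm_cyclic (p : ℕ) [hpf : Fact p.Prime] (S : Type) [CommGroup S] [Finite S]
    (hS : IsPGroup p S)
    (h : ∀ x y : S, x ^ p = 1 → y ^ p = 1 → x ≠ 1 → y ∈ Subgroup.zpowers x) :
    IsCyclic S := by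
  have hpp : 0 < p := hpf.out.pos
  obtain ⟨g, hg⟩ := Monoid.exists_orderOf_eq_exponent (G := S) Monoid.ExponentExists.of_finite
  obtain ⟨e, he⟩ := (IsPGroup.iff_orderOf.mp hS) g
  rw [isCyclic_iff_exists_zpowers_eq_top]
  refine ⟨g, ?_⟩
  by_contra hne
  obtain ⟨b, hb⟩ : ∃ b, b ∉ Subgroup.zpowers g := by
    by_contra hcon
    push Not at hcon
    exact hne (eq_top_iff.mpr fun x _ => hcon x)
  -- choose b with b^p in zpowers g
  have hex : ∃ k, b ^ (p ^ k) ∈ Subgroup.zpowers g := by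
    obtain ⟨k, hk⟩ := hS b
    exact ⟨k, by rw [hk]; exact Subgroup.one_mem _⟩
  classical
  obtain ⟨c, hc, hcp⟩ : ∃ c, c ∉ Subgroup.zpowers g ∧ c ^ p ∈ Subgroup.zpowers g := by
    have h0 : Nat.find hex ≠ 0 := by
      intro h0
      have := Nat.find_spec hex
      rw [h0, pow_zero, pow_one] at this
      exact hb this
    refine ⟨b ^ (p ^ (Nat.find hex - 1)), Nat.find_min hex (by omega), ?_⟩
    rw [← pow_mul, ← pow_succ, Nat.sub_add_cancel (Nat.pos_of_ne_zero h0)]
    exact Nat.find_spec hex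
  have he0 : e ≠ 0 := by
    intro h0
    rw [h0, pow_zero] at he
    apply hc
    have h1 : c ^ (orderOf g) = 1 := by rw [hg]; exact Monoid.pow_exponent_eq_one c
    rw [he, pow_one] at h1
    rw [h1]; exact Subgroup.one_mem _
  obtain ⟨m, hm⟩ := hcp
  simp only at hm
  have hpm : (p : ℤ) ∣ m := by
    have h1 : g ^ (m * (p : ℤ) ^ (e - 1)) = 1 := by
      rw [zpow_mul, hm]
      have : (c ^ p) ^ ((p : ℤ) ^ (e - 1)) = c ^ (p ^ e) := by
        have h2 : ((p : ℤ) ^ (e - 1)) = ((p ^ (e - 1) : ℕ) : ℤ) := by push_cast; rfl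
        rw [h2, zpow_natCast, ← pow_mul, ← pow_succ', Nat.sub_add_cancel (Nat.pos_of_ne_zero he0)]
      rw [this, ← he, hg]
      exact Monoid.pow_exponent_eq_one c
    have h2 : ((p ^ e : ℕ) : ℤ) ∣ m * (p : ℤ) ^ (e - 1) := by
      rw [← he]; exact orderOf_dvd_iff_zpow_eq_one.mpr h1
    have h3 : ((p ^ e : ℕ) : ℤ) = (p : ℤ) * (p : ℤ) ^ (e - 1) := by
      push_cast
      rw [← pow_succ', Nat.sub_add_cancel (Nat.pos_of_ne_zero he0)]
    rw [h3] at h2
    exact Int.dvd_of_mul_dvd_mul_right (pow_ne_zero _ (by exact_mod_cast hpp.ne')) h2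
  obtain ⟨m', hm'⟩ := hpm
  have hx1 : g ^ (p ^ (e - 1)) ≠ 1 := by
    intro h0
    have h1 := orderOf_dvd_of_pow_eq_one h0
    rw [he] at h1
    have h2 := (Nat.pow_dvd_pow_iff_le_right hpf.out.one_lt).mp h1
    omega
  have hxp : (g ^ (p ^ (e - 1))) ^ p = 1 := by
    rw [← pow_mul, ← pow_succ, Nat.sub_add_cancel (Nat.pos_of_ne_zero he0), ← he,
      pow_orderOf_eq_one]
  have hyp : (g ^ (-m') * c) ^ p = 1 := by
    rw [mul_pow, ← hm, hm', ← zpow_natCast, ← zpow_mul, ← zpow_add]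
    have : -m' * (p : ℤ) + p * m' = 0 := by ring
    rw [this, zpow_zero]
  have hmem := h _ _ hxp hyp hx1
  have h1 : g ^ (-m') * c ∈ Subgroup.zpowers g := by
    refine Subgroup.zpowers_le.mpr ?_ hmem
    exact Subgroup.npow_mem_zpowers g _
  have h3 : g ^ (-m') ∈ Subgroup.zpowers g := Subgroup.zpow_mem_zpowers g _
  exact hc ((Subgroup.mul_mem_cancel_left _ h3).mp h1)

/-- a maximal normal abelian subgroup of a finite `p`-group is self-centralising. -/
theorem exists_self_centralizing (p : ℕ) [hpf : Fact p.Prime] (S : Type) [Group S] [Finite S]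
    (hS : IsPGroup p S) :
    ∃ A : Subgroup S, A.Normal ∧ (∀ x ∈ A, ∀ y ∈ A, x * y = y * x) ∧
      ∀ y : S, (∀ x ∈ A, y * x = x * y) → y ∈ A := by
  classical
  -- maximal element
  obtain ⟨A, hA⟩ := (Set.toFinite {A : Subgroup S | A.Normal ∧ ∀ x ∈ A, ∀ y ∈ A,
    x * y = y * x}).exists_maximal ⟨⊥, by
      constructor
      · infer_instance
      · intro x hx y hy
        rw [Subgroup.mem_bot] at hx hy
        simp [hx, hy]⟩
  obtain ⟨⟨hn, hc⟩, hmax⟩ := hA
  refine ⟨A, hn, hc, ?_⟩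
  by_contra hcon
  push Not at hcon
  obtain ⟨y, hy, hyA⟩ := hcon
  -- the centralizer
  let C : Subgroup S := Subgroup.centralizer (A : Set S)
  have hCn : C.Normal := by
    show (Subgroup.centralizer (A : Set S)).Normal
    infer_instance
  have hyC : y ∈ C := Subgroup.mem_centralizer_iff.mpr fun x hx => (hy x hx).symm
  let Q := S ⧸ A
  have hQ : IsPGroup p Q := hS.to_quotient A
  let D : Subgroup Q := C.map (QuotientGroup.mk' A)
  have hDn : D.Normal := hCn.map _ (QuotientGroup.mk'_surjective A)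
  have hyD : (QuotientGroup.mk' A y) ∈ D := Subgroup.mem_map_of_mem _ hyC
  have hy1 : QuotientGroup.mk' A y ≠ 1 := by
    intro h0
    exact hyA ((QuotientGroup.eq_one_iff y).mp h0)
  have hDp : IsPGroup p D := hQ.to_subgroup D
  have hDnt : Nontrivial D := ⟨⟨_, hyD⟩, 1, fun h0 => hy1 (congrArg Subtype.val h0)⟩
  have hdvd : p ∣ Nat.card D := by
    rcases hDp.card_eq_or_dvd with h1 | h1
    · exfalso
      have := Finite.one_lt_card (α := D)
      omega
    · exact h1
  have hCA : IsPGroup p (ConjAct Q) := hQ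
  have hone : (1 : D) ∈ MulAction.fixedPoints (ConjAct Q) D := by
    intro g
    exact smul_one g
  obtain ⟨d, hd, hd1⟩ := hCA.exists_fixed_point_of_prime_dvd_card_of_fixed_point D hdvd hone
  obtain ⟨x, hxC, hx⟩ := Subgroup.mem_map.mp d.2
  have hxA : x ∉ A := by
    intro h0
    apply hd1
    apply Subtype.ext
    rw [← hx]
    exact ((QuotientGroup.eq_one_iff x).mpr h0).symm
  -- x is central mod A
  have hcent : ∀ s : S, s * x * s⁻¹ * x⁻¹ ∈ A := by
    intro s
    have h1 := hd (ConjAct.toConjAct (QuotientGroup.mk' A s))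
    have h2 : (QuotientGroup.mk' A s) * (d : Q) * (QuotientGroup.mk' A s)⁻¹ = d := by
      have := congrArg Subtype.val h1
      exact this
    rw [← hx] at h2
    rw [← QuotientGroup.eq_one_iff]
    have h3 : (QuotientGroup.mk' A) (s * x * s⁻¹ * x⁻¹) = 1 := by
      rw [map_mul, map_mul, map_mul, map_inv, map_inv, h2, mul_inv_cancel]
    exact h3
  -- B = A ⊔ zpowers x
  let B : Subgroup S := A ⊔ Subgroup.zpowers x
  have hAB : A ≤ B := le_sup_left
  have hxB : x ∈ B := Subgroup.mem_sup_right (Subgroup.mem_zpowers x)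
  have hxcomm : ∀ a ∈ A, x * a = a * x := fun a ha => (Subgroup.mem_centralizer_iff.mp hxC a ha).symm
  have hBdesc : ∀ w ∈ B, ∃ a ∈ A, ∃ k : ℤ, w = a * x ^ k := by
    intro w hw
    obtain ⟨a, ha, v, hv, hav⟩ := Subgroup.mem_sup_of_normal_left.mp hw
    obtain ⟨k, hk⟩ := hv
    exact ⟨a, ha, k, by rw [← hav, ← hk]⟩
  have hBn : B.Normal := by
    constructor
    intro w hw s
    obtain ⟨a, ha, k, rfl⟩ := hBdesc w hw
    have h1 : s * (a * x ^ k) * s⁻¹ = (s * a * s⁻¹) * (s * x * s⁻¹) ^ k := by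
      rw [conj_zpow]; group
    rw [h1]
    apply B.mul_mem (hAB (hn.conj_mem a ha s))
    apply B.zpow_mem
    have h2 : s * x * s⁻¹ = (s * x * s⁻¹ * x⁻¹) * x := by group
    rw [h2]
    exact B.mul_mem (hAB (hcent s)) hxB
  have hBc : ∀ v ∈ B, ∀ w ∈ B, v * w = w * v := by
    intro v hv w hw
    obtain ⟨a, ha, k, rfl⟩ := hBdesc v hv
    obtain ⟨b, hb, l, rfl⟩ := hBdesc w hw
    have e1 : Commute a b := hc a ha b hb
    have e2 : Commute x a := hxcomm a ha
    have e3 : Commute x b := hxcomm b hb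
    have e4 : Commute (x ^ k) b := e3.zpow_left k
    have e5 : Commute a (x ^ l) := (e2.symm).zpow_right l
    have e6 : Commute (x ^ k) (x ^ l) := (Commute.refl x).zpow_zpow k l
    exact (((e1.mul_left e4)).mul_right (e5.mul_left e6)).eq
  have := hmax ⟨hBn, hBc⟩ hAB
  exact hxA (this hxB)

theorem conj_pow' {S : Type} [Group S] {a b : S} {r : ℤ} (hab : b * a * b⁻¹ = a ^ r)
    (j : ℤ) : b * a ^ j = a ^ (j * r) * b := by
  have h : b * a ^ j * b⁻¹ = a ^ (j * r) := by
    rw [← conj_zpow, hab, ← zpow_mul, mul_comm]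
  rw [← h]; group

/-- main computation: an element outside a self-centralising cyclic normal subgroup whose square
lies inside it squares to the involution and acts by inversion -/
theorem sq_outside (S : Type) [Group S] [Finite S] (n : ℕ) (hn : 1 ≤ n) (a y : S)
    (h1 : ∀ x y : S, x ^ 2 = 1 → y ^ 2 = 1 → x ≠ 1 → y ≠ 1 → x = y)
    (hao : orderOf a = 2 ^ n)
    (hyA : y ∉ Subgroup.zpowers a) (hcen : y * a ≠ a * y)
    (hy2 : y ^ 2 ∈ Subgroup.zpowers a) (hyn : y * a * y⁻¹ ∈ Subgroup.zpowers a) :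
    y ^ 2 = a ^ (2 ^ (n - 1)) ∧ y * a * y⁻¹ = a⁻¹ := by
  obtain ⟨m, hm⟩ := hy2
  obtain ⟨r, hr⟩ := hyn
  simp only at hm hr
  have hdvd : ∀ k : ℤ, a ^ k = 1 ↔ (2 : ℤ) ^ n ∣ k := by
    intro k
    rw [← orderOf_dvd_iff_zpow_eq_one, hao]
    push_cast; rfl
  have hz : a ^ ((2 : ℤ) ^ (n - 1)) ≠ 1 := by
    intro h0
    have h2 := (hdvd _).mp h0
    have h3 : (2 : ℕ) ^ n ∣ 2 ^ (n - 1) := by exact_mod_cast h2
    have h4 := (Nat.pow_dvd_pow_iff_le_right (by norm_num)).mp h3
    omega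
  have hzn : a ^ ((2 : ℤ) ^ (n - 1)) = a ^ (2 ^ (n - 1)) := by
    have h3 : ((2 : ℤ) ^ (n - 1)) = ((2 ^ (n - 1) : ℕ) : ℤ) := by push_cast; rfl
    rw [h3, zpow_natCast]
  have h2n : (2 : ℤ) ^ n = 2 ^ (n - 1) * 2 := by
    rw [← pow_succ, Nat.sub_add_cancel hn]
  have hz2 : (a ^ ((2 : ℤ) ^ (n - 1))) ^ 2 = 1 := by
    rw [← zpow_natCast, ← zpow_mul, hdvd, h2n]
    norm_num
  -- no involution outside
  have hno : ∀ j : ℤ, (a ^ j * y) ^ 2 ≠ 1 := by
    intro j h0
    by_cases h2 : a ^ j * y = 1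
    · apply hyA
      have : y = a ^ (-j) := by
        rw [zpow_neg]
        exact eq_inv_of_mul_eq_one_right h2
      rw [this]; exact Subgroup.zpow_mem_zpowers a _
    · have h3 := h1 _ _ h0 hz2 h2 hz
      apply hyA
      have : y = a ^ (-j) * a ^ ((2 : ℤ) ^ (n - 1)) := by
        rw [← h3]; group
      rw [this, ← zpow_add]; exact Subgroup.zpow_mem_zpowers a _
  have hform : ∀ j : ℤ, (a ^ j * y) ^ 2 = a ^ (j * (1 + r) + m) := by
    intro j
    have h2 := conj_pow' hr.symm j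
    calc (a ^ j * y) ^ 2 = a ^ j * (y * a ^ j) * y := by
          rw [pow_two]; simp only [mul_assoc]
      _ = a ^ j * a ^ (j * r) * y ^ 2 := by rw [h2, pow_two]; simp only [mul_assoc]
      _ = _ := by rw [← hm]; rw [← zpow_add, ← zpow_add]; congr 1; ring
  have hnd : ∀ j : ℤ, ¬ ((2 : ℤ) ^ n ∣ j * (1 + r) + m) := by
    intro j h0
    exact hno j (by rw [hform j]; exact (hdvd _).mpr h0)
  -- m is even
  have hmr : (2 : ℤ) ^ n ∣ m * (r - 1) := by
    rw [← hdvd]
    have h2 := conj_pow' hr.symm m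
    rw [hm] at h2
    have h3 : a ^ (m * r) = y ^ 2 := by
      have : y * y ^ 2 = y ^ 2 * y := by rw [pow_two, mul_assoc]
      rw [this] at h2
      exact (mul_right_cancel h2).symm
    rw [mul_sub, mul_one, zpow_sub, h3, hm, mul_inv_cancel]
  have hr1 : ¬ ((2 : ℤ) ^ n ∣ r - 1) := by
    intro h0
    have h2 := (hdvd _).mpr h0
    rw [zpow_sub, zpow_one, hr, mul_inv_eq_one, mul_inv_eq_iff_eq_mul] at h2
    exact hcen h2
  have hme : (2 : ℤ) ∣ m := by
    by_contra hodd
    have hcop : IsCoprime ((2 : ℤ) ^ n) m := by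
      apply IsCoprime.pow_left
      rw [Int.isCoprime_iff_gcd_eq_one]
      have := (Int.prime_two.coprime_iff_not_dvd (n := m)).mpr hodd
      exact Int.isCoprime_iff_gcd_eq_one.mp this
    exact hr1 (hcop.dvd_of_dvd_mul_left hmr)
  -- r is odd
  have hro : ¬ ((2 : ℤ) ∣ r) := by
    intro h0
    -- r ^ 2 ≡ 1
    obtain ⟨m₁, rfl⟩ := hme
    have h2 := conj_pow' hr.symm r
    have h3 : a ^ (r * r) = a := by
      have h4 : y * (y * a * y⁻¹) * y⁻¹ = y ^ 2 * a * (y ^ 2)⁻¹ := by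
        rw [pow_two, mul_inv_rev]; simp only [mul_assoc]
      rw [← hr, h2, ← hm] at h4
      have h5 : a ^ (2 * m₁) * a * (a ^ (2 * m₁))⁻¹ = a := by group
      rw [h5, mul_inv_cancel_right] at h4
      exact h4
    have h4 : (2 : ℤ) ^ n ∣ r * r - 1 := by
      rw [← hdvd, zpow_sub, h3, zpow_one, mul_inv_cancel]
    have h5 : (2 : ℤ) ∣ r * r - 1 := dvd_trans (dvd_pow_self 2 (by omega)) h4
    have h6 : (2 : ℤ) ∣ r * r := h0.mul_right r
    have h7 : (2 : ℤ) ∣ 1 := by
      have := dvd_sub h6 h5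
      simp at this
    norm_num at h7
  -- r ≡ 3 mod 4
  have hr4 : (4 : ℤ) ∣ r - 3 := by
    by_contra hcon
    have hr4' : (4 : ℤ) ∣ r - 1 := by omega
    obtain ⟨t, ht⟩ := hr4'
    obtain ⟨m₁, rfl⟩ := hme
    have hu : 1 + r = 2 * (1 + 2 * t) := by linarith
    have hcop : IsCoprime (1 + 2 * t) ((2 : ℤ) ^ n) := by
      apply IsCoprime.pow_right
      exact ⟨1, -t, by ring⟩
    obtain ⟨c, d, hcd⟩ := hcop
    apply hnd (-m₁ * c)
    refine ⟨2 * m₁ * d, ?_⟩
    rw [hu]
    linear_combination (-2 * m₁) * hcd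
  obtain ⟨t, ht⟩ := hr4
  have hrt : r - 1 = 2 * (1 + 2 * t) := by linarith
  have hcop : IsCoprime ((2 : ℤ) ^ (n - 1)) (1 + 2 * t) := by
    apply IsCoprime.pow_left
    exact ⟨-t, 1, by ring⟩
  -- 2^(n-1) ∣ m
  have hm1 : (2 : ℤ) ^ (n - 1) ∣ m := by
    rw [hrt, h2n] at hmr
    have h2 : (2 : ℤ) ^ (n - 1) ∣ m * (1 + 2 * t) := by
      obtain ⟨c, hc⟩ := hmr
      refine ⟨c, ?_⟩
      have : (2 : ℤ) * (m * (1 + 2 * t)) = 2 * (2 ^ (n - 1) * c) := by linear_combination hc
      exact mul_left_cancel₀ two_ne_zero this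
    exact hcop.dvd_of_dvd_mul_right h2
  obtain ⟨m', hm'⟩ := hm1
  have hmo : ¬ ((2 : ℤ) ∣ m') := by
    rintro ⟨m'', rfl⟩
    apply hnd 0
    rw [hm', h2n]
    exact ⟨m'', by ring⟩
  have h3 : (2 : ℤ) ^ n ∣ m - 2 ^ (n - 1) := by
    obtain ⟨q, hq⟩ : ∃ q, m' = 2 * q + 1 := ⟨m' / 2, by omega⟩
    refine ⟨q, ?_⟩
    rw [hm', h2n, hq]; ring
  refine ⟨?_, ?_⟩
  · rw [← hzn, ← hm]
    have := (hdvd _).mpr h3
    rw [zpow_sub, mul_inv_eq_one] at this
    exact this
  · -- r ≡ -1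
    have hrr : (2 : ℤ) ^ n ∣ (r - 1) * (r + 1) := by
      have h2 := conj_pow' hr.symm r
      have h4 : y * (y * a * y⁻¹) * y⁻¹ = y ^ 2 * a * (y ^ 2)⁻¹ := by
        rw [pow_two, mul_inv_rev]; simp only [mul_assoc]
      rw [← hr, h2, ← hm] at h4
      have h5 : a ^ m * a * (a ^ m)⁻¹ = a := by group
      rw [h5, mul_inv_cancel_right] at h4
      have h6 : a ^ (r * r) = a := h4
      have h7 : (r - 1) * (r + 1) = r * r - 1 := by ring
      rw [h7, ← hdvd, zpow_sub, h6, zpow_one, mul_inv_cancel]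
    have h4 : (2 : ℤ) ^ (n - 1) ∣ r + 1 := by
      rw [hrt, h2n] at hrr
      have h2 : (2 : ℤ) ^ (n - 1) ∣ (1 + 2 * t) * (r + 1) := by
        obtain ⟨c, hc⟩ := hrr
        refine ⟨c, ?_⟩
        have : (2 : ℤ) * ((1 + 2 * t) * (r + 1)) = 2 * (2 ^ (n - 1) * c) := by
          linear_combination hc
        exact mul_left_cancel₀ two_ne_zero this
      exact hcop.dvd_of_dvd_mul_left h2
    obtain ⟨c, hc⟩ := h4
    have hce : (2 : ℤ) ∣ c := by
      by_contra hco
      apply hnd 1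
      obtain ⟨q, hq⟩ : ∃ q, m' = 2 * q + 1 := ⟨m' / 2, by omega⟩
      obtain ⟨q', hq'⟩ : ∃ q', c = 2 * q' + 1 := ⟨c / 2, by omega⟩
      refine ⟨q + q' + 1, ?_⟩
      rw [hq'] at hc
      rw [hq] at hm'
      rw [h2n]
      linear_combination hc + hm'
    obtain ⟨q, rfl⟩ := hce
    have h5 : a ^ (r + 1) = 1 := (hdvd _).mpr ⟨q, by rw [hc, h2n]; ring⟩
    rw [← hr, eq_inv_iff_mul_eq_one, ← zpow_add_one, h5]

/-- block X4b -/
theorem two_inj (S T : Type) [Group S] [Group T] [Finite S] (hS : IsPGroup 2 S) (f : S →* T)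
    (hf : Function.Surjective f)
    (h1 : ∀ x y : S, x ^ 2 = 1 → y ^ 2 = 1 → x ≠ 1 → y ≠ 1 → x = y)
    (h2 : ∀ x y : T, x ^ 2 = 1 → y ^ 2 = 1 → x ≠ 1 → y ≠ 1 → x = y)
    (hT : ¬ IsCyclic T) : Function.Injective f := by
  have : Fact (Nat.Prime 2) := ⟨Nat.prime_two⟩
  rw [injective_iff_map_eq_one]
  by_contra hcon
  push Not at hcon
  obtain ⟨s, hs, hs1⟩ := hcon
  -- an involution in the kernel
  obtain ⟨z, hzk, hz2, hz1⟩ : ∃ z : S, f z = 1 ∧ z ^ 2 = 1 ∧ z ≠ 1 := by
    have hfin : IsOfFinOrder s := isOfFinOrder_of_finite s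
    have h3 : 2 ∣ orderOf s := hS.dvd_orderOf hs1
    obtain ⟨k, hk⟩ := h3
    refine ⟨s ^ k, by rw [map_pow, hs, one_pow], ?_, ?_⟩
    · rw [← pow_mul, mul_comm, ← hk, pow_orderOf_eq_one]
    · intro h0
      have h4 := orderOf_dvd_of_pow_eq_one h0
      have h5 : 0 < k := by
        rcases Nat.eq_zero_or_pos k with h6 | h6
        · rw [h6, mul_zero] at hk
          exact absurd hk (orderOf_pos s).ne'
        · exact h6
      have := Nat.le_of_dvd h5 h4
      omega
  obtain ⟨A, hAn, hAc, hAs⟩ := exists_self_centralizing 2 S hS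
  have hAcyc : IsCyclic A := by
    let _ : CommGroup A := { (inferInstance : Group A) with
      mul_comm := fun x y => Subtype.ext (hAc x x.2 y y.2) }
    apply comm_cyclic 2 A (hS.to_subgroup A)
    intro x y hx hy hx1
    by_cases hy1 : y = 1
    · rw [hy1]; exact Subgroup.one_mem _
    · have : x = y := by
        apply Subtype.ext
        apply h1 x y (by exact_mod_cast congrArg Subtype.val hx)
          (by exact_mod_cast congrArg Subtype.val hy)
        · exact fun h0 => hx1 (Subtype.ext h0)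
        · exact fun h0 => hy1 (Subtype.ext h0)
      rw [← this]; exact Subgroup.mem_zpowers x
  obtain ⟨a, ha⟩ := Subgroup.isCyclic_iff_exists_zpowers_eq_top A |>.mp hAcyc
  obtain ⟨n, hao⟩ := (IsPGroup.iff_orderOf.mp hS) a
  -- A ≠ S
  have hAtop : ∃ y, y ∉ A := by
    by_contra hc
    push Not at hc
    apply hT
    apply isCyclic_of_surjective (f.comp A.subtype)
    intro t
    obtain ⟨s, rfl⟩ := hf t
    exact ⟨⟨s, hc s⟩, rfl⟩
  have hcomm_of : ∀ y : S, y * a = a * y → y ∈ A := by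
    intro y hy
    apply hAs
    intro x hx
    rw [← ha] at hx
    obtain ⟨k, rfl⟩ := hx
    exact ((show Commute y a from hy).zpow_right k).eq
  obtain ⟨y₀, hy₀⟩ := hAtop
  have hn2 : 2 ≤ n := by
    by_contra hlt
    -- a^2 = 1, so a = 1 or a is the involution, hence central
    have ha2 : a ^ 2 = 1 := by
      rw [← orderOf_dvd_iff_pow_eq_one, hao]
      calc 2 ^ n ∣ 2 ^ 1 := pow_dvd_pow 2 (by omega)
        _ = 2 := by norm_num
    apply hy₀
    apply hcomm_of
    by_cases ha1 : a = 1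
    · rw [ha1]; simp
    · have h3 : (y₀ * a * y₀⁻¹) = a := by
        apply h1 _ _ _ ha2 _ ha1
        · rw [conj_pow, ha2]; group
        · intro h0
          apply ha1
          have : a = y₀⁻¹ * (y₀ * a * y₀⁻¹) * y₀ := by group
          rw [this, h0]; group
      rw [mul_inv_eq_iff_eq_mul] at h3
      exact h3
  have hzA : a ^ (2 ^ (n - 1)) = z := by
    apply h1 _ _ _ hz2 _ hz1
    · rw [← pow_mul, ← pow_succ, Nat.sub_add_cancel (by omega), ← hao, pow_orderOf_eq_one]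
    · intro h0
      have h3 := orderOf_dvd_of_pow_eq_one h0
      rw [hao] at h3
      have h4 := (Nat.pow_dvd_pow_iff_le_right (by norm_num)).mp h3
      omega
  have hconj : ∀ y : S, y * a * y⁻¹ ∈ Subgroup.zpowers a := by
    intro y
    rw [ha]
    exact hAn.conj_mem a (by rw [← ha]; exact Subgroup.mem_zpowers a) y
  have hkey : ∀ y : S, y ∉ A → y ^ 2 ∈ A → y ^ 2 = z ∧ y * a * y⁻¹ = a⁻¹ := by
    intro y hy hy2
    rw [← hzA]
    apply sq_outside S n (by omega) a y h1 hao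
    · rw [ha]; exact hy
    · exact fun h0 => hy (hcomm_of y h0)
    · rw [ha]; exact hy2
    · exact hconj y
  -- every element outside A has its square in A
  have hsq : ∀ y : S, y ∉ A → y ^ 2 ∈ A := by
    intro y hy
    by_contra hy2
    classical
    have hex : ∃ k, (y ^ 2) ^ (2 ^ k) ∈ A := by
      obtain ⟨k, hk⟩ := hS (y ^ 2)
      exact ⟨k, by rw [hk]; exact A.one_mem⟩
    have h0 : Nat.find hex ≠ 0 := by
      intro h0
      have := Nat.find_spec hex
      rw [h0, pow_zero, pow_one] at this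
      exact hy2 this
    set k := Nat.find hex with hk
    have hw : (y ^ 2) ^ (2 ^ (k - 1)) ∉ A := Nat.find_min hex (by omega)
    have hw2 : ((y ^ 2) ^ (2 ^ (k - 1))) ^ 2 ∈ A := by
      rw [← pow_mul, ← pow_succ, Nat.sub_add_cancel (Nat.pos_of_ne_zero h0)]
      exact Nat.find_spec hex
    obtain ⟨-, hinv⟩ := hkey _ hw hw2
    -- w = v ^ 2
    have hv : (y ^ 2) ^ (2 ^ (k - 1)) = (y ^ (2 ^ (k - 1))) ^ 2 := by
      rw [← pow_mul, ← pow_mul, mul_comm]
    rw [hv] at hinv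
    set v := y ^ (2 ^ (k - 1)) with hvdef
    obtain ⟨t, ht⟩ := hconj v
    simp only at ht
    have h3 := conj_pow' ht.symm t
    have h4 : v ^ 2 * a * (v ^ 2)⁻¹ = v * (v * a * v⁻¹) * v⁻¹ := by
      rw [pow_two, mul_inv_rev]; simp only [mul_assoc]
    rw [← ht, h3, hinv, mul_inv_cancel_right] at h4
    have h5 : a ^ (t * t + 1) = 1 := by
      rw [zpow_add_one, ← h4, inv_mul_cancel]
    have h6 : ((2 ^ n : ℕ) : ℤ) ∣ t * t + 1 := by
      rw [← hao]; exact orderOf_dvd_iff_zpow_eq_one.mpr h5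
    have h7 : (4 : ℤ) ∣ t * t + 1 := by
      refine dvd_trans ?_ h6
      have : (4 : ℤ) = ((2 ^ 2 : ℕ) : ℤ) := by norm_num
      rw [this]
      exact_mod_cast pow_dvd_pow 2 hn2
    rcases Int.even_or_odd' t with ⟨q, rfl | rfl⟩
    · obtain ⟨c, hc⟩ := h7
      have : (4 : ℤ) * (c - q * q) = 1 := by linear_combination (-1 : ℤ) * hc
      omega
    · obtain ⟨c, hc⟩ := h7
      have : (4 : ℤ) * (c - q * q - q) = 2 := by linear_combination (-1 : ℤ) * hc
      omega
  have hout : ∀ y : S, y ∉ A → f y ^ 2 = 1 := by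
    intro y hy
    rw [← map_pow, (hkey y hy (hsq y hy)).1, hzk]
  -- all elements of T square to one
  have hall : ∀ s : S, f s ^ 2 = 1 := by
    intro s
    by_cases hsA : s ∈ A
    · have h3 : s * y₀ ∉ A := fun h0 => hy₀ ((A.mul_mem_cancel_left hsA).mp h0)
      have h4 := hout _ h3
      have h5 := hout _ hy₀
      by_cases h6 : f y₀ = 1
      · rw [map_mul, h6, mul_one] at h4
        exact h4
      · by_cases h7 : f (s * y₀) = 1
        · have h8 : f s = (f y₀)⁻¹ := by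
            rw [map_mul] at h7
            exact eq_inv_of_mul_eq_one_left h7
          rw [h8, inv_pow, h5, inv_one]
        · have h8 := h2 _ _ h4 h5 h7 h6
          rw [map_mul] at h8
          have h9 : f s = 1 := by
            have := mul_eq_right.mp h8
            exact this
          rw [h9, one_pow]
    · exact hout s hsA
  apply hT
  by_cases hex : ∃ w : T, w ≠ 1
  · obtain ⟨w, hw⟩ := hex
    rw [isCyclic_iff_exists_zpowers_eq_top]
    refine ⟨w, eq_top_iff.mpr fun x _ => ?_⟩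
    by_cases hx : x = 1
    · rw [hx]; exact Subgroup.one_mem _
    · obtain ⟨s, rfl⟩ := hf x
      obtain ⟨s', rfl⟩ := hf w
      rw [h2 _ _ (hall s) (hall s') hx hw]
      exact Subgroup.mem_zpowers _
  · push Not at hex
    have : Subsingleton T := ⟨fun x y => by rw [hex x, hex y]⟩
    exact isCyclic_of_subsingleton

end Vale.Agent.P260.H234
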