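import Mathlib
import Vale.Agent.P260.H145.RFDefs
import Vale.Agent.P260.H520.Fam
import Vale.Agent.P260.H520.NoPP
import Vale.Agent.P260.H234.X4a
import Vale.Agent.P260.H234.X4b
import Vale.Agent.P260.H234.S3
import Vale.Agent.P260.H234.S5a
import Vale.Agent.P260.H234.S5b

/-! P260, block S5c: the final assembly of the residually finite theorem. -/

namespace Vale.Agent.P260.H234

open scoped commutatorElement
open Vale.Agent.P260.H145

theorem Rp_le (p : ℕ) {G : Type} [Group G] (N : Subgroup G) [N.Normal] : Rp p N ≤ N :=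
  sInf_le ⟨inferInstance, le_rfl, 0, by simp⟩

theorem Rp_mono (p : ℕ) [hp : Fact p.Prime] {G : Type} [Group G] (N' N : Subgroup G) [N'.Normal]
    (h : N' ≤ N) : Rp p N' ≤ Rp p N := by
  refine le_sInf ?_
  rintro K ⟨hK, hKN, a, ha⟩
  have h1 : K ⊓ N' ∈ {K | K.Normal ∧ K ≤ N' ∧ ∃ a : ℕ, K.relIndex N' = p ^ a} := by
    refine ⟨inferInstance, inf_le_right, ?_⟩
    rw [Subgroup.inf_relIndex_right]
    have h2 : K.relIndex N' ∣ K.relIndex N := by
      rw [← Subgroup.relIndex_subgroupOf h]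
      exact Subgroup.relIndex_dvd_index_of_normal _ _
    rw [ha] at h2
    obtain ⟨b, -, hb⟩ := (Nat.dvd_prime_pow hp.out).mp h2
    exact ⟨b, hb⟩
  exact (sInf_le h1).trans inf_le_left

theorem unique_inv (S : Type) [Group S] [Finite S] (hS : IsPGroup 2 S)
    (h : ∀ x y : S, x ^ 2 = 1 → y ^ 2 = 1 → x * y = y * x → x ≠ 1 → y ∈ Subgroup.zpowers x) :
    ∀ x y : S, x ^ 2 = 1 → y ^ 2 = 1 → x ≠ 1 → y ≠ 1 → x = y := by
  have : Fact (Nat.Prime 2) := ⟨Nat.prime_two⟩
  intro x y hx hy hx1 hy1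
  have hnt : Nontrivial S := ⟨x, 1, hx1⟩
  have hc : Nontrivial (Subgroup.center S) := hS.center_nontrivial
  have hcp : IsPGroup 2 (Subgroup.center S) := hS.to_subgroup _
  have hdvd : 2 ∣ Nat.card (Subgroup.center S) := by
    rcases hcp.card_eq_or_dvd with h1 | h1
    · exfalso
      have := Finite.one_lt_card (α := Subgroup.center S)
      omega
    · exact h1
  obtain ⟨z, hz⟩ := exists_prime_orderOf_dvd_card' 2 hdvd
  have hz2 : (z : S) ^ 2 = 1 := by
    have := pow_orderOf_eq_one z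
    rw [hz] at this
    exact_mod_cast congrArg Subtype.val this
  have hz1 : (z : S) ≠ 1 := by
    intro h0
    have : z = 1 := Subtype.ext h0
    rw [this, orderOf_one] at hz
    norm_num at hz
  have hzc : ∀ s : S, (z : S) * s = s * z := fun s => (Subgroup.mem_center_iff.mp z.2 s).symm
  have key : ∀ s : S, s ^ 2 = 1 → s ≠ 1 → s = z := by
    intro s hs hs1
    obtain ⟨k, hk⟩ := h z s hz2 hs (hzc s) hz1
    simp only at hk
    rcases Int.even_or_odd' k with ⟨q, rfl | rfl⟩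
    · exfalso
      apply hs1
      rw [← hk, zpow_mul]
      have : (z : S) ^ (2 : ℤ) = 1 := by exact_mod_cast hz2
      rw [this, one_zpow]
    · rw [← hk, zpow_add, zpow_mul]
      have : (z : S) ^ (2 : ℤ) = 1 := by exact_mod_cast hz2
      rw [this, one_zpow, one_mul, zpow_one]
  rw [key x hx hx1, key y hy hy1]

/-- the no-pair property -/
def NoPP (p : ℕ) {Q : Type} [Group Q] (F : Subgroup Q) : Prop :=
  ∀ x ∈ F, ∀ y ∈ F, x ^ p = 1 → y ^ p = 1 → x * y = y * x → x ≠ 1 → y ∈ Subgroup.zpowers x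

theorem NoPP.sub {p : ℕ} {Q : Type} [Group Q] {F : Subgroup Q} (h : NoPP p F) (P : Subgroup F) :
    ∀ x y : P, x ^ p = 1 → y ^ p = 1 → x * y = y * x → x ≠ 1 → y ∈ Subgroup.zpowers x := by
  intro x y hx hy hxy hx1
  have h1 : ((x : F) : Q) ^ p = 1 := by
    exact_mod_cast congrArg (fun u : P => ((u : F) : Q)) hx
  have h2 : ((y : F) : Q) ^ p = 1 := by
    exact_mod_cast congrArg (fun u : P => ((u : F) : Q)) hy
  have h3 : ((x : F) : Q) * ((y : F) : Q) = ((y : F) : Q) * ((x : F) : Q) := by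
    exact_mod_cast congrArg (fun u : P => ((u : F) : Q)) hxy
  have h4 : ((x : F) : Q) ≠ 1 := fun h0 => hx1 (Subtype.ext (Subtype.ext h0))
  obtain ⟨k, hk⟩ := h _ (x : F).2 _ (y : F).2 h1 h2 h3 h4
  exact ⟨k, Subtype.ext (Subtype.ext (by simpa using hk))⟩

/-- if a Sylow `2`-subgroup of the image is noncyclic, the kernel has no `2`-elements -/
theorem ker_two {F F₁ : Type} [Group F] [Group F₁] [Finite F] [Finite F₁] (f : F →* F₁)
    (hf : Function.Surjective f) (P₁ : Sylow 2 F₁) (hP₁ : ¬ IsCyclic P₁)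
    (h : ∀ P : Subgroup F, ∀ x y : P, x ^ 2 = 1 → y ^ 2 = 1 → x * y = y * x → x ≠ 1 →
      y ∈ Subgroup.zpowers x)
    (h₁ : ∀ P : Subgroup F₁, ∀ x y : P, x ^ 2 = 1 → y ^ 2 = 1 → x * y = y * x → x ≠ 1 →
      y ∈ Subgroup.zpowers x)
    (Q : Subgroup F) (hQ : IsPGroup 2 Q) (hQf : Q ≤ f.ker) : Q = ⊥ := by
  have : Fact (Nat.Prime 2) := ⟨Nat.prime_two⟩
  obtain ⟨P, rfl⟩ := Sylow.mapSurjective_surjective hf 2 P₁
  have hinj : Function.Injective (f.subgroupMap (P : Subgroup F)) := by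
    refine two_inj P ((P : Subgroup F).map f) P.2 _ (f.subgroupMap_surjective _) ?_ ?_ ?_
    · exact unique_inv P P.2 (h P)
    · have h2 : IsPGroup 2 ((P : Subgroup F).map f) := P.2.map f
      exact unique_inv _ h2 (h₁ _)
    · exact hP₁
  obtain ⟨P₂, hP₂⟩ := hQ.exists_le_sylow
  obtain ⟨g, hg⟩ := MulAction.exists_smul_eq F P₂ P
  rw [eq_bot_iff]
  intro x hx
  have h1 : x ∈ (P₂ : Subgroup F) := hP₂ hx
  have h2 : g * x * g⁻¹ ∈ (P : Subgroup F) := by
    rw [← hg]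
    have : g * x * g⁻¹ = (MulAut.conj g) x := rfl
    rw [this, Sylow.coe_subgroup_smul]
    exact Subgroup.smul_mem_pointwise_smul x (MulAut.conj g) _ h1
  have h3 : f (g * x * g⁻¹) = 1 := by
    have : f x = 1 := hQf hx
    rw [map_mul, map_mul, this, map_inv]; group
  have h4 : (⟨g * x * g⁻¹, h2⟩ : P) = 1 := by
    apply hinj
    rw [map_one]
    exact Subtype.ext h3
  have h5 : g * x * g⁻¹ = 1 := congrArg Subtype.val h4
  rw [Subgroup.mem_bot]
  have h6 : x = g⁻¹ * (g * x * g⁻¹) * g := by group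
  rw [h6, h5]; group

/-- index set: pairs of a prime and a normal finite-index subgroup below the `N₀` of the prime -/
structure Idx (G : Type) [Group G] (C : ℕ) (D : ∀ p : ℕ, p.Prime → PrimeData p G C) where
  p : ℕ
  hp : p.Prime
  N : Subgroup G
  hN : N.Normal
  hfin : N.FiniteIndex
  hle : N ≤ (D p hp).N₀

theorem final_of
    (X1 : ∀ (p : ℕ) [Fact p.Prime] (G : Type) [Group G] (_ : Group.FG G) (N : Subgroup G)
      [N.Normal] [N.FiniteIndex] (C : ℕ)
      (_ : ∀ H : Subgroup G, H.FiniteIndex → H ≤ N → ∀ (n : ℕ)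
        (f : H →* Multiplicative (Fin n → ZMod p)), Function.Surjective f → n ≤ C),
      ∃ (d : ℕ) (R : G →* Matrix (Fin d) (Fin d) ℤ_[p]) (V : Subgroup G), d ≤ C ∧
        V.FiniteIndex ∧ ∀ g, R g = 1 → ∀ v ∈ V, ⁅g, v⁆ ∈ Rp p N)
    (G : Type) [Group G] (hfg : Group.FG G) (hF : Folner G) (hres : ResFin G) (C : ℕ)
    (D : ∀ p : ℕ, p.Prime → PrimeData p G C) : VSolv G := by
  classical
  -- representations
  have hfact : ∀ i : Idx G C D, Fact i.p.Prime := fun i => ⟨i.hp⟩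
  have hrep : ∀ i : Idx G C D, ∃ (d : ℕ) (R : G →* Matrix (Fin d) (Fin d) ℤ_[i.p])
      (V : Subgroup G), d ≤ C ∧ V.FiniteIndex ∧ ∀ g, R g = 1 → ∀ v ∈ V, ⁅g, v⁆ ∈ Rp i.p i.N := by
    intro i
    have := i.hN
    have := i.hfin
    refine X1 i.p G hfg i.N C ?_
    intro H hH hHN n f hf
    exact (D i.p i.hp).bound H hH (hHN.trans i.hle) n f hf
  choose d R V hd hV hR using hrep
  obtain ⟨H, hH, n, hHn⟩ := Vale.Agent.P260.H520.fam_solv G hfg hF C (Idx G C D) (fun i => i.p) d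
    hd R
  -- the subgroup A
  let A : Subgroup G := ⨅ i : Idx G C D, (R i).ker
  have hAn : A.Normal := Subgroup.normal_iInf_normal fun i => inferInstance
  have hmemA : ∀ g, g ∈ A ↔ ∀ i, R i g = 1 := by
    intro g
    simp only [A, Subgroup.mem_iInf, MonoidHom.mem_ker]
  let E : Subgroup G := ⁅A, A⁆
  have hEn : E.Normal := Subgroup.commutator_normal A A
  have hEN : ∀ (p : ℕ) (hp : p.Prime), E ≤ (D p hp).N₀ := fun p hp =>
    (Subgroup.commutator_mono le_top le_top).trans (D p hp).comm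
  have hfinE : ∀ i : Idx G C D, Finite (E.map (QuotientGroup.mk' (Rp i.p i.N))) := by
    intro i
    exact finite_comm A (V i) (Rp i.p i.N) (hV i)
      fun a ha v hv => hR i a ((hmemA a).mp ha i) v hv
  have hnoE : ∀ i : Idx G C D, NoPP i.p (E.map (QuotientGroup.mk' (Rp i.p i.N))) := by
    intro i
    have h1 := i.hN
    have h2 := i.hfin
    exact Vale.Agent.P260.H520.noPP i.p (D i.p i.hp) i.N i.hle E (hEN i.p i.hp) (hfinE i)
  -- shrinking
  have hidx : ∀ (p : ℕ) (hp : p.Prime) (N : Subgroup G), N.Normal → N.FiniteIndex →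
      ∃ i : Idx G C D, i.p = p ∧ i.N = N ⊓ (D p hp).N₀ := by
    intro p hp N hN hNf
    have h1 := (D p hp).normal
    have h2 := (D p hp).fin
    exact ⟨⟨p, hp, N ⊓ (D p hp).N₀, inferInstance, inferInstance, inf_le_right⟩, rfl, rfl⟩
  -- the odd primes
  have hodd : ∀ i : Idx G C D, i.p ≠ 2 →
      ∀ P : Subgroup (E.map (QuotientGroup.mk' (Rp i.p i.N))), IsPGroup i.p P → IsCyclic P := by
    intro i hi P hP
    have := hfinE i
    exact cyclic_of_odd i.p hi P hP ((hnoE i).sub P)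
  -- subgroups of E
  have hsubE : ∀ (B : Subgroup G) (_ : B ≤ E) (i : Idx G C D),
      (∀ P : Subgroup (E.map (QuotientGroup.mk' (Rp i.p i.N))), IsPGroup i.p P → IsCyclic P) →
      Finite (B.map (QuotientGroup.mk' (Rp i.p i.N))) ∧
      ∀ P : Sylow i.p (B.map (QuotientGroup.mk' (Rp i.p i.N))), IsCyclic P := by
    intro B hB i hcyc
    have h0 := hfinE i
    have hle : B.map (QuotientGroup.mk' (Rp i.p i.N)) ≤ E.map (QuotientGroup.mk' (Rp i.p i.N)) :=
      Subgroup.map_mono hB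
    have hinj := Subgroup.inclusion_injective hle
    refine ⟨Finite.of_injective _ hinj, fun P => ?_⟩
    have h1 := hcyc ((P : Subgroup _).map (Subgroup.inclusion hle)) (P.2.map _)
    exact isCyclic_of_injective ((Subgroup.inclusion hle).subgroupMap (P : Subgroup _)) (by
      intro x y hxy
      have := congrArg Subtype.val hxy
      exact Subtype.ext (hinj this))
  -- reduce to: a normal B ≤ E with E.map (mk' B) finite and cyclic Sylow 2-subgroups
  suffices hmain : ∃ B : Subgroup G, ∃ _ : B.Normal, B ≤ E ∧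
      Finite (E.map (QuotientGroup.mk' B)) ∧
      ∀ (N : Subgroup G) [N.Normal] [N.FiniteIndex], ∃ i : Idx G C D, i.p = 2 ∧
        i.N ≤ N ∧ ∀ P : Sylow 2 (B.map (QuotientGroup.mk' (Rp i.p i.N))), IsCyclic P by
    obtain ⟨B, hBn, hBE, hBfin, hB2⟩ := hmain
    refine vsolv_of_layers A B E H hH n ?_ le_rfl hBE hBfin ?_
    · intro h hh
      rw [hmemA]
      exact hHn h hh
    · apply metab hres B
      intro p hp N hN hNf
      by_cases h2 : p = 2
      · subst h2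
        obtain ⟨i, hip, hiN, hcyc⟩ := hB2 N
        have := i.hN
        have h0 := hfinE i
        have hle : B.map (QuotientGroup.mk' (Rp i.p i.N)) ≤
            E.map (QuotientGroup.mk' (Rp i.p i.N)) := Subgroup.map_mono hBE
        exact ⟨Rp i.p i.N, inferInstance, (Rp_le i.p i.N).trans hiN,
          Finite.of_injective _ (Subgroup.inclusion_injective hle), hcyc⟩
      · obtain ⟨i, hip, hiN⟩ := hidx p hp.out N hN hNf
        obtain ⟨q, hq, M, hM, hMf, hMle⟩ := i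
        simp only at hip hiN
        subst hip
        have h3 := hsubE B hBE ⟨q, hq, M, hM, hMf, hMle⟩ (hodd ⟨q, hq, M, hM, hMf, hMle⟩ h2)
        exact ⟨Rp q M, inferInstance, (Rp_le q M).trans (hiN ▸ inf_le_left), h3.1, h3.2⟩
  -- p = 2
  have hP2 : Nat.Prime 2 := Nat.prime_two
  have hF2 : Fact (Nat.Prime 2) := ⟨hP2⟩
  by_cases hcase : ∀ i : Idx G C D, i.p = 2 →
      ∀ P : Subgroup (E.map (QuotientGroup.mk' (Rp i.p i.N))), IsPGroup i.p P → IsCyclic P
  · refine ⟨E, hEn, le_rfl, ?_, ?_⟩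
    · have h1 : E.map (QuotientGroup.mk' E) = ⊥ := by
        rw [Subgroup.map_eq_bot_iff, QuotientGroup.ker_mk']
      rw [h1]; infer_instance
    · intro N hN hNf
      obtain ⟨i, hip, hiN⟩ := hidx 2 hP2 N hN hNf
      refine ⟨i, hip, hiN ▸ inf_le_left, ?_⟩
      have h3 := hsubE E le_rfl i (hcase i hip)
      have h4 := h3.2
      rw [← hip]
      exact h4
  · push Not at hcase
    obtain ⟨i₁, hi₁, P₁, hP₁, hP₁c⟩ := hcase
    obtain ⟨q₁, hq₁, N₁, hN₁, hN₁f, hN₁le⟩ := i₁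
    simp only at hi₁ P₁ hP₁ hP₁c
    subst hi₁
    have hRn : (Rp 2 N₁).Normal := inferInstance
    refine ⟨E ⊓ Rp 2 N₁, inferInstance, inf_le_left, ?_, ?_⟩
    · -- finiteness
      have h0 : Finite (E.map (QuotientGroup.mk' (Rp 2 N₁))) :=
        hfinE ⟨2, hq₁, N₁, hN₁, hN₁f, hN₁le⟩
      let q : G ⧸ (E ⊓ Rp 2 N₁) →* G ⧸ (Rp 2 N₁) :=
        QuotientGroup.map (E ⊓ Rp 2 N₁) (Rp 2 N₁) (MonoidHom.id G) (by
          rw [Subgroup.comap_id]; exact inf_le_right)
      have hqmem : ∀ x : E.map (QuotientGroup.mk' (E ⊓ Rp 2 N₁)),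
          q (x : G ⧸ (E ⊓ Rp 2 N₁)) ∈ E.map (QuotientGroup.mk' (Rp 2 N₁)) := by
        rintro ⟨_, b, hb, rfl⟩
        exact ⟨b, hb, rfl⟩
      let f : E.map (QuotientGroup.mk' (E ⊓ Rp 2 N₁)) →* E.map (QuotientGroup.mk' (Rp 2 N₁)) :=
        (q.comp (E.map (QuotientGroup.mk' (E ⊓ Rp 2 N₁))).subtype).codRestrict _ hqmem
      refine Finite.of_injective f ?_
      rw [injective_iff_map_eq_one]
      rintro ⟨_, b, hb, rfl⟩ h1
      have h2 : QuotientGroup.mk' (Rp 2 N₁) b = 1 := congrArg Subtype.val h1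
      apply Subtype.ext
      exact (QuotientGroup.eq_one_iff b).mpr ⟨hb, (QuotientGroup.eq_one_iff b).mp h2⟩
    · intro N hN hNf
      have hle2 : N ⊓ N₁ ≤ (D 2 hP2).N₀ := inf_le_right.trans hN₁le
      refine ⟨⟨2, hP2, N ⊓ N₁, inferInstance, inferInstance, hle2⟩, rfl, inf_le_left, ?_⟩
      intro Q
      simp only at Q ⊢
      -- the finite groups
      have hf' : Finite (E.map (QuotientGroup.mk' (Rp 2 (N ⊓ N₁)))) :=
        hfinE ⟨2, hP2, N ⊓ N₁, inferInstance, inferInstance, hle2⟩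
      have hf₁ : Finite (E.map (QuotientGroup.mk' (Rp 2 N₁))) :=
        hfinE ⟨2, hq₁, N₁, hN₁, hN₁f, hN₁le⟩
      have hRR : Rp 2 (N ⊓ N₁) ≤ Rp 2 N₁ := Rp_mono 2 (N ⊓ N₁) N₁ inf_le_right
      let q : G ⧸ Rp 2 (N ⊓ N₁) →* G ⧸ (Rp 2 N₁) :=
        QuotientGroup.map (Rp 2 (N ⊓ N₁)) (Rp 2 N₁) (MonoidHom.id G) (by
          rw [Subgroup.comap_id]; exact hRR)
      have hqmem : ∀ x : E.map (QuotientGroup.mk' (Rp 2 (N ⊓ N₁))),
          q (x : G ⧸ Rp 2 (N ⊓ N₁)) ∈ E.map (QuotientGroup.mk' (Rp 2 N₁)) := by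
        rintro ⟨_, b, hb, rfl⟩
        exact ⟨b, hb, rfl⟩
      let f : E.map (QuotientGroup.mk' (Rp 2 (N ⊓ N₁))) →* E.map (QuotientGroup.mk' (Rp 2 N₁)) :=
        (q.comp (E.map (QuotientGroup.mk' (Rp 2 (N ⊓ N₁)))).subtype).codRestrict _ hqmem
      have hfs : Function.Surjective f := by
        rintro ⟨_, b, hb, rfl⟩
        exact ⟨⟨QuotientGroup.mk' _ b, b, hb, rfl⟩, rfl⟩
      obtain ⟨P₂, hP₂⟩ := hP₁.exists_le_sylow
      have hP₂c : ¬ IsCyclic P₂ := fun h => hP₁c (Subgroup.isCyclic_of_le hP₂)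
      have hle : (E ⊓ Rp 2 N₁).map (QuotientGroup.mk' (Rp 2 (N ⊓ N₁))) ≤
          E.map (QuotientGroup.mk' (Rp 2 (N ⊓ N₁))) := Subgroup.map_mono inf_le_left
      have hinj := Subgroup.inclusion_injective hle
      have hbot := ker_two f hfs P₂ hP₂c
        (hnoE ⟨2, hP2, N ⊓ N₁, inferInstance, inferInstance, hle2⟩).sub
        (hnoE ⟨2, hq₁, N₁, hN₁, hN₁f, hN₁le⟩).sub
        ((Q : Subgroup _).map (Subgroup.inclusion hle)) (Q.2.map _) (by
          rintro _ ⟨⟨_, b, hb, rfl⟩, -, rfl⟩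
          apply Subtype.ext
          exact (QuotientGroup.eq_one_iff b).mpr hb.2)
      have hQbot : (Q : Subgroup ((E ⊓ Rp 2 N₁).map (QuotientGroup.mk' (Rp 2 (N ⊓ N₁))))) = ⊥ := by
        rw [eq_bot_iff]
        intro x hx
        have h1 : Subgroup.inclusion hle x ∈ (Q : Subgroup _).map (Subgroup.inclusion hle) :=
          Subgroup.mem_map_of_mem _ hx
        rw [hbot, Subgroup.mem_bot] at h1
        rw [Subgroup.mem_bot]
        apply hinj
        rw [h1, map_one]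
      have hss : Subsingleton
          (Q : Subgroup ((E ⊓ Rp 2 N₁).map (QuotientGroup.mk' (Rp 2 (N ⊓ N₁))))) := by
        rw [hQbot]; infer_instance
      exact isCyclic_of_subsingleton

end Vale.Agent.P260.H234
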