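import Mathlib
import Vale.Agent.P260.H234.Final
import Vale.Agent.P260.H795.X1

/-! P260: a finitely generated amenable residually finite group with the prime data for all primes
is virtually solvable. -/

namespace Vale.Agent.P260.H234

open scoped commutatorElement
open Vale.Agent.P260.H145

theorem final (G : Type) [Group G] (hfg : Group.FG G) (hF : Folner G) (hres : ResFin G) (C : ℕ)
    (D : ∀ p : ℕ, p.Prime → PrimeData p G C) : VSolv G :=
  final_of (fun p _ G _ hfg N _ _ C hC =>
    Vale.Agent.P260.H795.rep_exists_rel p G hfg N C hC) G hfg hF hres C D

end Vale.Agent.P260.H234
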